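import Vale.Agent.P307.Bdl.B1
import Mathlib.Data.Prod.Lex

universe u

open Cardinal Set

namespace Vale.Agent.P307.R2.H366

open Vale.Agent.P307

section thin

variable {ρ : Cardinal.{u}}

/-- Recursive choice of a subsequence of `SuccTy ρ`. -/
theorem exists_subseq (hρ : ℵ₀ ≤ ρ) (R : SuccTy ρ → SuccTy ρ → Prop) (P : SuccTy ρ → Prop)
    (hP : ∀ i, ∃ j, i < j ∧ P j) (hR : ∀ i, P i → ∃ j, ∀ k, j < k → P k → R i k) :
    ∃ g : SuccTy ρ → SuccTy ρ, StrictMono g ∧ (∀ j, P (g j)) ∧ ∀ i j, i < j → R (g i) (g j) := by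
  classical
  have hne : Nonempty {x : SuccTy ρ // P x} := by
    obtain ⟨x, -⟩ := exists_gt_of_small hρ (∅ : Set (SuccTy ρ)) (by simp only [mk_eq_zero, zero_le])
    obtain ⟨j, -, hj⟩ := hP x
    exact ⟨⟨j, hj⟩⟩
  have hstep : ∀ s : Set {x : SuccTy ρ // P x}, ∃ x : {x : SuccTy ρ // P x},
      #s ≤ ρ → ∀ y ∈ s, y.1 < x.1 ∧ R y.1 x.1 := by
    intro s
    by_cases hs : #s ≤ ρ
    · choose b hb using fun y : {x : SuccTy ρ // P x} => hR y.1 y.2
      obtain ⟨x, hx⟩ := exists_gt_of_small hρ ((fun y : {x : SuccTy ρ // P x} => y.1) '' s ∪ b '' s)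
        ((mk_union_le _ _).trans ((add_le_add (mk_image_le.trans hs) (mk_image_le.trans hs)).trans
          (by rw [add_eq_self hρ])))
      obtain ⟨z, hxz, hz⟩ := hP x
      refine ⟨⟨z, hz⟩, fun _ y hy => ⟨?_, ?_⟩⟩
      · exact (hx _ (Or.inl ⟨y, hy, rfl⟩)).trans hxz
      · exact hb y z ((hx _ (Or.inr ⟨y, hy, rfl⟩)).trans hxz) hz
    · exact ⟨hne.some, fun h => absurd h hs⟩
  choose nxt hnxt using hstep
  let g : SuccTy ρ → {x : SuccTy ρ // P x} := WellFounded.fix (r := (· < ·)) wellFounded_lt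
    (fun i rec => nxt (Set.range (fun j : Set.Iio i => rec j.1 j.2)))
  have hg : ∀ i, g i = nxt (Set.range (fun j : Set.Iio i => g j.1)) := fun i =>
    WellFounded.fix_eq _ _ i
  have key : ∀ i j, i < j → (g i).1 < (g j).1 ∧ R (g i).1 (g j).1 := by
    intro i j hij
    have h := hnxt (Set.range (fun j' : Set.Iio j => g j'.1))
      (mk_range_le.trans (mk_Iio_succTy j)) (g i) ⟨⟨i, hij⟩, rfl⟩
    rw [← hg j] at h
    exact h
  exact ⟨fun j => (g j).1, fun i j hij => (key i j hij).1, fun j => (g j).2,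
    fun i j hij => (key i j hij).2⟩

/-- Thinning to a constant sequence. -/
theorem exists_subseq_const (hρ : ℵ₀ ≤ ρ) {T : Type u} (hT : #T ≤ ρ) (f : SuccTy ρ → T) :
    ∃ g : SuccTy ρ → SuccTy ρ, StrictMono g ∧ ∃ t, ∀ j, f (g j) = t := by
  obtain ⟨t, ht⟩ := exists_unbounded_color hρ hT f
  obtain ⟨g, hg, hg2, -⟩ := exists_subseq hρ (fun _ _ => True) (fun j => f j = t) ht
    (fun i _ => ⟨i, fun _ _ _ => trivial⟩)
  exact ⟨g, hg, t, hg2⟩

/-- Thinning to a constant or strictly increasing sequence. -/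
theorem exists_subseq_mono (hρ : ℵ₀ ≤ ρ) {Ω : Type*} [LinearOrder Ω] [WellFoundedLT Ω]
    (f : SuccTy ρ → Ω) : ∃ g : SuccTy ρ → SuccTy ρ, StrictMono g ∧
      ((∃ x, ∀ j, f (g j) = x) ∨ StrictMono fun j => f (g j)) := by
  by_cases h : ∃ x, ∀ i, ∃ j, i < j ∧ f j = x
  · obtain ⟨x, hx⟩ := h
    obtain ⟨g, hg, hg2, -⟩ := exists_subseq hρ (fun _ _ => True) (fun j => f j = x) hx
      (fun i _ => ⟨i, fun _ _ _ => trivial⟩)
    exact ⟨g, hg, Or.inl ⟨x, hg2⟩⟩
  · push Not at h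
    have aux : ∀ P : SuccTy ρ → Prop, (∀ i, ∃ j, i < j ∧ P j) →
        (∀ i, P i → ∃ i₁, ∀ j, i₁ < j → ¬ f j < f i) →
        ∃ g : SuccTy ρ → SuccTy ρ, StrictMono g ∧
          ((∃ x, ∀ j, f (g j) = x) ∨ StrictMono fun j => f (g j)) := by
      intro P hP hlt
      obtain ⟨g, hg, -, hg3⟩ := exists_subseq hρ (fun i k => f i < f k) P hP (by
        intro i hi
        obtain ⟨i₁, h₁⟩ := hlt i hi
        obtain ⟨i₂, h₂⟩ := h (f i)
        refine ⟨max i₁ i₂, fun k hk _ => ?_⟩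
        exact lt_of_le_of_ne (not_lt.1 (h₁ k ((le_max_left _ _).trans_lt hk)))
          (h₂ k ((le_max_right _ _).trans_lt hk)).symm)
      exact ⟨g, hg, Or.inr fun i j hij => hg3 i j hij⟩
    by_cases h2 : ∃ γ, ∀ i, ∃ j, i < j ∧ f j < γ
    · obtain ⟨γ, hγ, hmin⟩ := WellFounded.has_min (wellFounded_lt (α := Ω))
        {γ | ∀ i, ∃ j, i < j ∧ f j < γ} h2
      refine aux (fun j => f j < γ) hγ fun i hi => ?_
      by_contra hcon
      push Not at hcon
      exact hmin (f i) hcon hi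
    · push Not at h2
      obtain ⟨x₀, -⟩ := exists_gt_of_small hρ (∅ : Set (SuccTy ρ)) (by simp only [mk_eq_zero, zero_le])
      refine aux (fun _ => True) (fun i => ?_) fun i _ => ?_
      · obtain ⟨x, hx⟩ := exists_gt_of_small hρ ({i} : Set (SuccTy ρ))
          (by rw [mk_singleton]; exact one_le_aleph0.trans hρ)
        exact ⟨x, hx i rfl, trivial⟩
      · obtain ⟨i₁, h₁⟩ := h2 (f i)
        exact ⟨i₁, fun j hj => not_lt.2 (h₁ j hj)⟩

theorem exists_gt' (hρ : ℵ₀ ≤ ρ) (i : SuccTy ρ) : ∃ j, i < j := by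
  obtain ⟨x, hx⟩ := exists_gt_of_small hρ ({i} : Set (SuccTy ρ))
    (by rw [mk_singleton]; exact one_le_aleph0.trans hρ)
  exact ⟨x, hx i rfl⟩

theorem nonempty_succTy (hρ : ℵ₀ ≤ ρ) : Nonempty (SuccTy ρ) := by
  obtain ⟨x, -⟩ := exists_gt_of_small hρ (∅ : Set (SuccTy ρ)) (by simp only [mk_eq_zero, zero_le])
  exact ⟨x⟩

theorem le_of_strictMono {g : SuccTy ρ → SuccTy ρ} (hg : StrictMono g) (j : SuccTy ρ) : j ≤ g j :=
  hg.le_apply

/-- A property of sequences which passes to subsequences can be had for finitely many sequences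
at the same time. -/
theorem exists_subseq_finite {Q : Type*} [Finite Q] {J : Type*}
    (C : (SuccTy ρ → J) → Prop) (hC : ∀ f g, StrictMono g → C f → C fun j => f (g j))
    (hex : ∀ f : SuccTy ρ → J, ∃ g : SuccTy ρ → SuccTy ρ, StrictMono g ∧ C fun j => f (g j))
    (w : SuccTy ρ → Q → J) :
    ∃ g : SuccTy ρ → SuccTy ρ, StrictMono g ∧ ∀ q, C fun j => w (g j) q := by
  classical
  have := Fintype.ofFinite Q
  suffices H : ∀ F : Finset Q, ∃ g : SuccTy ρ → SuccTy ρ, StrictMono g ∧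
      ∀ q ∈ F, C fun j => w (g j) q by
    obtain ⟨g, hg, h⟩ := H Finset.univ
    exact ⟨g, hg, fun q => h q (Finset.mem_univ q)⟩
  intro F
  induction F using Finset.induction_on with
  | empty => exact ⟨id, strictMono_id, fun q hq => by simp at hq⟩
  | insert a F ha ih =>
    obtain ⟨g, hg, h⟩ := ih
    obtain ⟨g', hg', h'⟩ := hex fun j => w (g j) a
    refine ⟨fun j => g (g' j), hg.comp hg', fun q hq => ?_⟩
    rcases Finset.mem_insert.1 hq with rfl | hq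
    · exact h'
    · exact hC _ g' hg' (h q hq)

end thin

section alt

variable {Ω : Type u} [LinearOrder Ω]

/-- Finite sequences with the alternating lexicographic order. -/
def altLt : Bool → List Ω → List Ω → Prop
  | _, [], [] => False
  | s, [], _ :: _ => s = true
  | s, _ :: _, [] => s = false
  | s, a :: x, b :: y => (if s = true then a < b else b < a) ∨ a = b ∧ altLt (!s) x y

@[simp] theorem altLt_nil_nil (s : Bool) : ¬ altLt s ([] : List Ω) [] := fun h => h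

@[simp] theorem altLt_nil_cons (s : Bool) (b : Ω) (y : List Ω) :
    altLt s [] (b :: y) ↔ s = true := Iff.rfl

@[simp] theorem altLt_cons_nil (s : Bool) (b : Ω) (y : List Ω) :
    altLt s (b :: y) [] ↔ s = false := Iff.rfl

theorem altLt_cons_cons (s : Bool) (a b : Ω) (x y : List Ω) :
    altLt s (a :: x) (b :: y) ↔ (if s = true then a < b else b < a) ∨ a = b ∧ altLt (!s) x y :=
  Iff.rfl

theorem altLt_cons_self (s : Bool) (a : Ω) (x y : List Ω) :
    altLt s (a :: x) (a :: y) ↔ altLt (!s) x y := by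
  rw [altLt_cons_cons]
  cases s <;> simp

theorem altLt_cons_lt {a b : Ω} (h : a < b) (s : Bool) (x y : List Ω) :
    altLt s (a :: x) (b :: y) ↔ s = true := by
  rw [altLt_cons_cons]
  cases s <;> simp [h, h.ne, h.not_gt]

theorem altLt_cons_gt {a b : Ω} (h : b < a) (s : Bool) (x y : List Ω) :
    altLt s (a :: x) (b :: y) ↔ s = false := by
  rw [altLt_cons_cons]
  cases s <;> simp [h, h.ne', h.not_gt]

theorem altLt_irrefl (s : Bool) (x : List Ω) : ¬ altLt s x x := by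
  induction x generalizing s with
  | nil => exact fun h => h
  | cons a x ih => rw [altLt_cons_self]; exact ih _

theorem altLt_trans (s : Bool) {x y z : List Ω} (h₁ : altLt s x y) (h₂ : altLt s y z) :
    altLt s x z := by
  induction x generalizing s y z with
  | nil =>
    rcases y with _ | ⟨b, y⟩
    · exact absurd h₁ (altLt_nil_nil s)
    · rw [altLt_nil_cons] at h₁
      subst h₁
      rcases z with _ | ⟨c, z⟩
      · simp at h₂
      · simp
  | cons a x ih =>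
    rcases y with _ | ⟨b, y⟩
    · rw [altLt_cons_nil] at h₁
      subst h₁
      rcases z with _ | ⟨c, z⟩
      · simp
      · simp at h₂
    · rcases z with _ | ⟨c, z⟩
      · simpa using h₂
      · rcases lt_trichotomy a b with hab | rfl | hab
        · rw [altLt_cons_lt hab] at h₁
          subst h₁
          rcases lt_trichotomy b c with hbc | rfl | hbc
          · rw [altLt_cons_lt (hab.trans hbc)]
          · rw [altLt_cons_lt hab]
          · rw [altLt_cons_gt hbc] at h₂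
            simp at h₂
        · rcases lt_trichotomy a c with hbc | rfl | hbc
          · rw [altLt_cons_lt hbc] at h₂ ⊢
            exact h₂
          · rw [altLt_cons_self] at h₁ h₂ ⊢
            exact ih _ h₁ h₂
          · rw [altLt_cons_gt hbc] at h₂ ⊢
            exact h₂
        · rw [altLt_cons_gt hab] at h₁
          subst h₁
          rcases lt_trichotomy b c with hbc | rfl | hbc
          · rw [altLt_cons_lt hbc] at h₂
            simp at h₂
          · rw [altLt_cons_gt hab]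
          · rw [altLt_cons_gt (hbc.trans hab)]

theorem altLt_tri (s : Bool) (x y : List Ω) : altLt s x y ∨ x = y ∨ altLt s y x := by
  induction x generalizing s y with
  | nil =>
    rcases y with _ | ⟨b, y⟩
    · exact Or.inr (Or.inl rfl)
    · cases s <;> simp
  | cons a x ih =>
    rcases y with _ | ⟨b, y⟩
    · cases s <;> simp
    · rcases lt_trichotomy a b with hab | rfl | hab
      · rw [altLt_cons_lt hab, altLt_cons_gt hab]
        cases s <;> simp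
      · rw [altLt_cons_self, altLt_cons_self]
        rcases ih (!s) y with h | rfl | h
        · exact Or.inl h
        · exact Or.inr (Or.inl rfl)
        · exact Or.inr (Or.inr h)
      · rw [altLt_cons_lt hab, altLt_cons_gt hab]
        cases s <;> simp

/-- Finite sequences with the alternating lexicographic order. -/
def Alt (Ω : Type u) : Type u := List Ω

noncomputable instance : LinearOrder (Alt Ω) := by
  classical
  exact
  { le := fun x y => x = y ∨ altLt true x y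
    lt := fun x y => altLt true x y
    le_refl := fun x => Or.inl rfl
    le_trans := by
      rintro x y z (rfl | h₁) (rfl | h₂)
      · exact Or.inl rfl
      · exact Or.inr h₂
      · exact Or.inr h₁
      · exact Or.inr (altLt_trans _ h₁ h₂)
    le_antisymm := by
      rintro x y (rfl | h₁) (h | h₂)
      · rfl
      · rfl
      · exact h.symm
      · exact absurd (altLt_trans _ h₁ h₂) (altLt_irrefl _ _)
    le_total := by
      intro x y
      rcases altLt_tri true x y with h | h | h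
      · exact Or.inl (Or.inr h)
      · exact Or.inl (Or.inl h)
      · exact Or.inr (Or.inr h)
    lt_iff_le_not_ge := by
      intro x y
      constructor
      · intro h
        refine ⟨Or.inr h, ?_⟩
        rintro (rfl | h')
        · exact altLt_irrefl _ _ h
        · exact altLt_irrefl _ _ (altLt_trans _ h h')
      · rintro ⟨rfl | h, h'⟩
        · exact absurd (Or.inl rfl) h'
        · exact h
    toDecidableLE := Classical.decRel _ }

theorem alt_lt_iff (x y : Alt Ω) : x < y ↔ altLt true x y := Iff.rfl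

/-- Limits of thinned sequences. -/
theorem exists_fill {ρ μ : Cardinal.{u}} (hρ : ℵ₀ ≤ ρ) (hμ : Order.succ ρ ≤ μ) [WellFoundedLT Ω]
    (hΩ : ∀ s : Set Ω, #s ≤ μ → ∃ x, ∀ y ∈ s, y < x) (n : ℕ) :
    ∀ (s : Bool) (Y : Set (List Ω)) (_ : #Y ≤ μ) (w : SuccTy ρ → List Ω)
      (_ : ∀ j, (w j).length = n),
      ∃ g : SuccTy ρ → SuccTy ρ, StrictMono g ∧ ((∃ x, ∀ j, w (g j) = x) ∨
        ∃ x, x ∉ Y ∧ ∀ y ∈ Y, ∃ j₀, ∀ j, j₀ ≤ j →
          (altLt s (w (g j)) y ↔ altLt s x y) ∧ (altLt s y (w (g j)) ↔ altLt s y x)) := by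
  classical
  have hne := nonempty_succTy hρ
  induction n with
  | zero =>
    intro s Y hY w hw
    exact ⟨id, strictMono_id, Or.inl ⟨[], fun j => List.eq_nil_of_length_eq_zero (hw _)⟩⟩
  | succ n ih =>
    intro s Y hY w hw
    have hex : ∀ j, ∃ b w', w j = b :: w' ∧ w'.length = n := by
      intro j
      have h := hw j
      rcases hwj : w j with _ | ⟨b, w'⟩
      · rw [hwj] at h
        simp at h
      · rw [hwj] at h
        exact ⟨b, w', rfl, by simpa using h⟩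
    choose b w' hbw hw' using hex
    obtain ⟨g₁, hg₁, hb⟩ := exists_subseq_mono hρ b
    rcases hb with ⟨β, hβ⟩ | hb
    · obtain ⟨g₂, hg₂, h⟩ := ih (!s) {y | β :: y ∈ Y}
        ((mk_le_of_injective (f := fun y : {y | β :: y ∈ Y} => (⟨β :: y.1, y.2⟩ : Y))
          (fun y y' h => Subtype.ext (by simpa using h))).trans hY) (fun j => w' (g₁ j))
        (fun j => hw' _)
      refine ⟨fun j => g₁ (g₂ j), hg₁.comp hg₂, ?_⟩
      rcases h with ⟨x, hx⟩ | ⟨x, hx, h⟩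
      · exact Or.inl ⟨β :: x, fun j => by rw [hbw, hβ, hx]⟩
      · refine Or.inr ⟨β :: x, hx, fun y hy => ?_⟩
        rcases y with _ | ⟨a, y⟩
        · exact ⟨Classical.arbitrary _, fun j _ => by simp [hbw]⟩
        · rcases lt_trichotomy β a with hab | rfl | hab
          · exact ⟨Classical.arbitrary _, fun j _ => by
              rw [hbw, hβ, altLt_cons_lt hab, altLt_cons_lt hab, altLt_cons_gt hab,
                altLt_cons_gt hab]
              exact ⟨Iff.rfl, Iff.rfl⟩⟩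
          · obtain ⟨j₀, hj₀⟩ := h y hy
            refine ⟨j₀, fun j hj => ?_⟩
            rw [hbw, hβ, altLt_cons_self, altLt_cons_self, altLt_cons_self, altLt_cons_self]
            exact hj₀ j hj
          · exact ⟨Classical.arbitrary _, fun j _ => by
              rw [hbw, hβ, altLt_cons_lt hab, altLt_cons_lt hab, altLt_cons_gt hab,
                altLt_cons_gt hab]
              exact ⟨Iff.rfl, Iff.rfl⟩⟩
    · -- the least upper bound
      have hcard : #(SuccTy ρ) = Order.succ ρ := by simp only [SuccTy, mk_toType, card_ord]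
      obtain ⟨B, hB, hmin⟩ := WellFounded.has_min (wellFounded_lt (α := Ω))
        {x | ∀ j, b (g₁ j) < x} (by
          obtain ⟨x, hx⟩ := hΩ (Set.range fun j => b (g₁ j))
            (mk_range_le.trans (hcard.le.trans hμ))
          exact ⟨x, fun j => hx _ ⟨j, rfl⟩⟩)
      have hB' : ∀ c, c < B → ∃ j, c < b (g₁ j) := by
        intro c hc
        by_contra hcon
        push Not at hcon
        refine hmin c (fun j => ?_) hc
        obtain ⟨j', hj'⟩ := exists_gt' hρ j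
        exact (hb hj').trans_le (hcon j')
      obtain ⟨β, hβ⟩ := hΩ ((fun l : List Ω => l.tail.headD B) '' Y) (mk_image_le.trans hY)
      refine ⟨g₁, hg₁, Or.inr ⟨[B, β], fun hmem => ?_, fun y hy => ?_⟩⟩
      · exact lt_irrefl _ (hβ β ⟨_, hmem, rfl⟩)
      · rcases y with _ | ⟨a, y⟩
        · exact ⟨Classical.arbitrary _, fun j _ => by simp [hbw]⟩
        · rcases lt_trichotomy a B with hab | rfl | hab
          · obtain ⟨j₀, hj₀⟩ := hB' a hab
            refine ⟨j₀, fun j hj => ?_⟩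
            have h1 : a < b (g₁ j) := hj₀.trans_le (hb.monotone hj)
            rw [hbw, altLt_cons_lt h1, altLt_cons_lt hab, altLt_cons_gt h1, altLt_cons_gt hab]
            exact ⟨Iff.rfl, Iff.rfl⟩
          · refine ⟨Classical.arbitrary _, fun j _ => ?_⟩
            rw [hbw, altLt_cons_lt (hB j), altLt_cons_gt (hB j), altLt_cons_self, altLt_cons_self]
            rcases y with _ | ⟨c, y⟩
            · cases s <;> simp
            · have hc : c < β := hβ c ⟨_, hy, rfl⟩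
              rw [altLt_cons_lt hc, altLt_cons_gt hc]
              cases s <;> simp
          · refine ⟨Classical.arbitrary _, fun j _ => ?_⟩
            have h1 : b (g₁ j) < a := (hB j).trans hab
            rw [hbw, altLt_cons_lt h1, altLt_cons_lt hab, altLt_cons_gt h1, altLt_cons_gt hab]
            exact ⟨Iff.rfl, Iff.rfl⟩

end alt

section special

variable {ρ : Cardinal.{u}}

theorem prop_aux {a b c d : Prop} (h : ¬ ((a ↔ b) ∧ (c ↔ d))) :
    ((a ∧ ¬ b) ∨ (¬ c ∧ d)) ∨ ((b ∧ ¬ a) ∨ (¬ d ∧ c)) := by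
  tauto

/-- The combinatorial core: fill the cuts of finitely many sequences at the same time. -/
theorem exists_limit {J₀ Q : Type u} [LinearOrder J₀] [Finite Q] {Y : Set (J₀ ×ₗ ℕ)}
    (w : SuccTy ρ → Q → J₀ ×ₗ ℕ) (hw : ∀ j q, w j q ∈ Y) (hρ : ℵ₀ ≤ ρ)
    (hpat : ∀ j j' q q', w j q ≤ w j q' ↔ w j' q ≤ w j' q')
    (hf : ∀ q, (∃ x, ∀ j, w j q = x) ∨
      ∃ x : J₀, (∀ y ∈ Y, (ofLex y).1 ≠ x) ∧ ∀ y ∈ Y, ∃ j₀, ∀ j, j₀ ≤ j →
        ((ofLex (w j q)).1 < (ofLex y).1 ↔ x < (ofLex y).1) ∧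
        ((ofLex y).1 < (ofLex (w j q)).1 ↔ (ofLex y).1 < x)) :
    ∃ v : Q → J₀ ×ₗ ℕ, (∀ q, ∀ y ∈ Y, ∃ j₀, ∀ j, j₀ ≤ j →
      (w j q ≤ y ↔ v q ≤ y) ∧ (y ≤ w j q ↔ y ≤ v q)) ∧
      ∀ j q q', w j q ≤ w j q' ↔ v q ≤ v q' := by
  classical
  have hne := nonempty_succTy hρ
  obtain ⟨i₀⟩ := hne
  -- individual fillings
  have hex : ∀ q, ∃ x : J₀ ×ₗ ℕ, ((∀ j, w j q = x) ∧ x ∈ Y) ∨ ((∀ y ∈ Y, (ofLex y).1 ≠ (ofLex x).1) ∧
      ∀ y ∈ Y, ∃ j₀, ∀ j, j₀ ≤ j →
        ((ofLex (w j q)).1 < (ofLex y).1 ↔ (ofLex x).1 < (ofLex y).1) ∧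
        ((ofLex y).1 < (ofLex (w j q)).1 ↔ (ofLex y).1 < (ofLex x).1)) := by
    intro q
    rcases hf q with ⟨x, hx⟩ | ⟨x, hx⟩
    · exact ⟨x, Or.inl ⟨hx, hx i₀ ▸ hw i₀ q⟩⟩
    · exact ⟨toLex (x, 0), Or.inr hx⟩
  choose v₀ hv₀ using hex
  -- comparing with elements of Y
  have hle : ∀ (x : J₀ ×ₗ ℕ) (y : J₀ ×ₗ ℕ), (ofLex y).1 ≠ (ofLex x).1 →
      ((x ≤ y ↔ (ofLex x).1 < (ofLex y).1) ∧ (y ≤ x ↔ (ofLex y).1 < (ofLex x).1)) := by
    intro x y hxy
    rw [Prod.Lex.le_iff, Prod.Lex.le_iff]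
    exact ⟨⟨fun h => h.resolve_right fun h' => hxy h'.1.symm, Or.inl⟩,
      ⟨fun h => h.resolve_right fun h' => hxy h'.1, Or.inl⟩⟩
  have hfill : ∀ q (x : J₀ ×ₗ ℕ), (∀ y ∈ Y, (ofLex y).1 ≠ (ofLex x).1) →
      (∀ y ∈ Y, ∃ j₀, ∀ j, j₀ ≤ j →
        ((ofLex (w j q)).1 < (ofLex y).1 ↔ (ofLex x).1 < (ofLex y).1) ∧
        ((ofLex y).1 < (ofLex (w j q)).1 ↔ (ofLex y).1 < (ofLex x).1)) →
      ∀ y ∈ Y, ∃ j₀, ∀ j, j₀ ≤ j → (w j q ≤ y ↔ x ≤ y) ∧ (y ≤ w j q ↔ y ≤ x) := by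
    intro q x hx h y hy
    obtain ⟨j₀, hj₀⟩ := h y hy
    refine ⟨j₀, fun j hj => ?_⟩
    obtain ⟨h1, h2⟩ := hj₀ j hj
    have hne : (ofLex y).1 ≠ (ofLex (w j q)).1 := by
      intro heq
      rw [← heq] at h1 h2
      rcases lt_trichotomy (ofLex y).1 (ofLex x).1 with h | h | h
      · exact lt_irrefl _ (h2.2 h)
      · exact hx y hy h
      · exact lt_irrefl _ (h1.2 h)
    obtain ⟨h3, h4⟩ := hle (w j q) y hne
    obtain ⟨h5, h6⟩ := hle x y (hx y hy)
    exact ⟨h3.trans (h1.trans h5.symm), h4.trans (h2.trans h6.symm)⟩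
  have hconv₀ : ∀ q, ∀ y ∈ Y, ∃ j₀, ∀ j, j₀ ≤ j →
      (w j q ≤ y ↔ v₀ q ≤ y) ∧ (y ≤ w j q ↔ y ≤ v₀ q) := by
    intro q
    rcases hv₀ q with ⟨h, -⟩ | ⟨h1, h2⟩
    · intro y _
      exact ⟨i₀, fun j _ => by rw [h j]; exact ⟨Iff.rfl, Iff.rfl⟩⟩
    · exact hfill q _ h1 h2
  -- cut equivalence
  let S : Setoid Q :=
    { r := fun q q' => ∀ y ∈ Y, (v₀ q ≤ y ↔ v₀ q' ≤ y) ∧ (y ≤ v₀ q ↔ y ≤ v₀ q')
      iseqv :=
        { refl := fun q y _ => ⟨Iff.rfl, Iff.rfl⟩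
          symm := fun h y hy => ⟨(h y hy).1.symm, (h y hy).2.symm⟩
          trans := fun h h' y hy => ⟨(h y hy).1.trans (h' y hy).1, (h y hy).2.trans (h' y hy).2⟩ } }
  let rep : Q → Q := fun q => (Quotient.mk S q).out
  have hrep : ∀ q, ∀ y ∈ Y, (v₀ (rep q) ≤ y ↔ v₀ q ≤ y) ∧ (y ≤ v₀ (rep q) ↔ y ≤ v₀ q) := fun q =>
    Quotient.exact (s := S) (Quotient.out_eq (Quotient.mk S q))
  have hrep2 : ∀ q q', (∀ y ∈ Y, (v₀ q ≤ y ↔ v₀ q' ≤ y) ∧ (y ≤ v₀ q ↔ y ≤ v₀ q')) →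
      rep q = rep q' := fun q q' h => by
    have : Quotient.mk S q = Quotient.mk S q' := Quotient.sound (s := S) h
    simp only [rep, this]
  have hmem : ∀ q q', (∀ y ∈ Y, (v₀ q ≤ y ↔ v₀ q' ≤ y) ∧ (y ≤ v₀ q ↔ y ≤ v₀ q')) →
      v₀ q ∈ Y → v₀ q' = v₀ q := fun q q' h hq =>
    le_antisymm ((h _ hq).1.1 le_rfl) ((h _ hq).2.1 le_rfl)
  have := Fintype.ofFinite Q
  let rank : Q → ℕ := fun q => (Finset.univ.filter fun q' => w i₀ q' < w i₀ q).card
  have hrank_le : ∀ q q', w i₀ q ≤ w i₀ q' → rank q ≤ rank q' := fun q q' h =>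
    Finset.card_le_card fun q'' h' => by
      simp only [Finset.mem_filter, Finset.mem_univ, true_and] at h' ⊢
      exact h'.trans_le h
  have hrank_lt : ∀ q q', w i₀ q < w i₀ q' → rank q < rank q' := fun q q' h =>
    Finset.card_lt_card (by
      refine ⟨fun q'' h' => ?_, fun hcon => ?_⟩
      · simp only [Finset.mem_filter, Finset.mem_univ, true_and] at h' ⊢
        exact h'.trans h
      · have : q ∈ Finset.univ.filter fun q' => w i₀ q' < w i₀ q :=
          hcon (by simp only [Finset.mem_filter, Finset.mem_univ, true_and]; exact h)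
        simp at this)
  let v : Q → J₀ ×ₗ ℕ := fun q =>
    if v₀ q ∈ Y then v₀ q else toLex ((ofLex (v₀ (rep q))).1, rank q)
  have hcut : ∀ q, ∀ y ∈ Y, (v q ≤ y ↔ v₀ q ≤ y) ∧ (y ≤ v q ↔ y ≤ v₀ q) := by
    intro q y hy
    by_cases hq : v₀ q ∈ Y
    · have hvq : v q = v₀ q := if_pos hq
      rw [hvq]
      exact ⟨Iff.rfl, Iff.rfl⟩
    · have hrepq : v₀ (rep q) ∉ Y := fun h => hq (by rw [hmem _ _ (hrep q) h]; exact h)
      have h1 : ∀ y ∈ Y, (ofLex y).1 ≠ (ofLex (v₀ (rep q))).1 := by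
        rcases hv₀ (rep q) with ⟨-, h⟩ | ⟨h, -⟩
        · exact absurd h hrepq
        · exact h
      obtain ⟨h2, h3⟩ := hle (v₀ (rep q)) y (h1 y hy)
      have hv1 : (ofLex (v q)).1 = (ofLex (v₀ (rep q))).1 := by
        simp only [v, if_neg hq]
        rfl
      obtain ⟨h4, h5⟩ := hle (v q) y (by rw [hv1]; exact h1 y hy)
      obtain ⟨h6, h7⟩ := hrep q y hy
      rw [hv1] at h4 h5
      exact ⟨h4.trans (h2.symm.trans h6), h5.trans (h3.symm.trans h7)⟩
  have hconv : ∀ q, ∀ y ∈ Y, ∃ j₀, ∀ j, j₀ ≤ j →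
      (w j q ≤ y ↔ v q ≤ y) ∧ (y ≤ w j q ↔ y ≤ v q) := by
    intro q y hy
    obtain ⟨j₀, hj₀⟩ := hconv₀ q y hy
    refine ⟨j₀, fun j hj => ?_⟩
    rw [(hcut q y hy).1, (hcut q y hy).2]
    exact hj₀ j hj
  -- separated by an element of `Y`, or in the same class
  have hsep : ∀ q q', (∀ y ∈ Y, (v₀ q ≤ y ↔ v₀ q' ≤ y) ∧ (y ≤ v₀ q ↔ y ≤ v₀ q')) ∨
      (v q < v q' ∧ w i₀ q < w i₀ q') ∨ (v q' < v q ∧ w i₀ q' < w i₀ q) := by
    intro q q'
    by_cases h : ∀ y ∈ Y, (v₀ q ≤ y ↔ v₀ q' ≤ y) ∧ (y ≤ v₀ q ↔ y ≤ v₀ q')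
    · exact Or.inl h
    · right
      obtain ⟨y, hy, h⟩ : ∃ y, y ∈ Y ∧
          ¬ ((v₀ q ≤ y ↔ v₀ q' ≤ y) ∧ (y ≤ v₀ q ↔ y ≤ v₀ q')) := by
        by_contra hcon
        exact h fun y hy => by_contra fun h' => hcon ⟨y, hy, h'⟩
      rw [← (hcut q y hy).1, ← (hcut q' y hy).1, ← (hcut q y hy).2, ← (hcut q' y hy).2] at h
      obtain ⟨j₁, h₁⟩ := hconv q y hy
      obtain ⟨j₂, h₂⟩ := hconv q' y hy
      obtain ⟨h3, h4⟩ := h₁ (max j₁ j₂) (le_max_left _ _)
      obtain ⟨h5, h6⟩ := h₂ (max j₁ j₂) (le_max_right _ _)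
      have hp := hpat (max j₁ j₂) i₀
      have key1 : (v q ≤ y ∧ ¬ v q' ≤ y) ∨ (¬ y ≤ v q ∧ y ≤ v q') →
          (v q < v q' ∧ w i₀ q < w i₀ q') := by
        rintro (⟨ha, hb⟩ | ⟨ha, hb⟩)
        · refine ⟨ha.trans_lt (not_le.1 hb), ?_⟩
          rw [← not_le, ← hp q' q, not_le]
          exact (h3.2 ha).trans_lt (not_le.1 fun h => hb (h5.1 h))
        · refine ⟨(not_le.1 ha).trans_le hb, ?_⟩
          rw [← not_le, ← hp q' q, not_le]
          exact (not_le.1 fun h => ha (h4.1 h)).trans_le (h6.2 hb)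
      have key2 : (v q' ≤ y ∧ ¬ v q ≤ y) ∨ (¬ y ≤ v q' ∧ y ≤ v q) →
          (v q' < v q ∧ w i₀ q' < w i₀ q) := by
        rintro (⟨ha, hb⟩ | ⟨ha, hb⟩)
        · refine ⟨ha.trans_lt (not_le.1 hb), ?_⟩
          rw [← not_le, ← hp q q', not_le]
          exact (h5.2 ha).trans_lt (not_le.1 fun h => hb (h3.1 h))
        · refine ⟨(not_le.1 ha).trans_le hb, ?_⟩
          rw [← not_le, ← hp q q', not_le]
          exact (not_le.1 fun h => ha (h6.1 h)).trans_le (h4.2 hb)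
      have h' : ((v q ≤ y ∧ ¬ v q' ≤ y) ∨ (¬ y ≤ v q ∧ y ≤ v q')) ∨
          ((v q' ≤ y ∧ ¬ v q ≤ y) ∨ (¬ y ≤ v q' ∧ y ≤ v q)) := prop_aux h
      rcases h' with h' | h'
      · exact Or.inl (key1 h')
      · exact Or.inr (key2 h')
  have hvle : ∀ q q', w i₀ q ≤ w i₀ q' → v q ≤ v q' := by
    intro q q' h
    rcases hsep q q' with h1 | h1 | h1
    · by_cases hq : v₀ q ∈ Y
      · have h2 := hmem _ _ h1 hq
        simp only [v, h2, if_pos hq, le_refl]
      · have hq' : v₀ q' ∉ Y := fun h' => hq (by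
          rw [hmem q' q (fun y hy => ⟨(h1 y hy).1.symm, (h1 y hy).2.symm⟩) h']; exact h')
        simp only [v, if_neg hq, if_neg hq', hrep2 _ _ h1]
        rw [Prod.Lex.le_iff]
        exact Or.inr ⟨rfl, hrank_le _ _ h⟩
    · exact h1.1.le
    · exact absurd h (not_le.2 h1.2)
  have hvlt : ∀ q q', w i₀ q < w i₀ q' → v q < v q' := by
    intro q q' h
    rcases hsep q q' with h1 | h1 | h1
    · by_cases hq : v₀ q ∈ Y
      · exfalso
        have h2 := hmem _ _ h1 hq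
        have h3 : w i₀ q = v₀ q := by
          rcases hv₀ q with ⟨h, -⟩ | ⟨h, -⟩
          · exact h i₀
          · exact absurd rfl (h _ hq)
        have h4 : w i₀ q' = v₀ q' := by
          rcases hv₀ q' with ⟨h, -⟩ | ⟨h, -⟩
          · exact h i₀
          · exact absurd rfl (h _ (by rw [h2]; exact hq))
        rw [h3, h4, h2] at h
        exact lt_irrefl _ h
      · have hq' : v₀ q' ∉ Y := fun h' => hq (by
          rw [hmem q' q (fun y hy => ⟨(h1 y hy).1.symm, (h1 y hy).2.symm⟩) h']; exact h')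
        simp only [v, if_neg hq, if_neg hq', hrep2 _ _ h1]
        rw [Prod.Lex.lt_iff]
        exact Or.inr ⟨rfl, hrank_lt _ _ h⟩
    · exact h1.1
    · exact absurd h (not_lt.2 h1.2.le)
  refine ⟨v, hconv, fun j q q' => ⟨fun h => hvle q q' ((hpat j i₀ q q').1 h), fun h => ?_⟩⟩
  by_contra hcon
  have h1 : ¬ w i₀ q ≤ w i₀ q' := fun h' => hcon ((hpat i₀ j q q').1 h')
  exact absurd h (not_le.2 (hvlt q' q (not_le.1 h1)))

/-- Well-orders with large cofinality. -/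
theorem exists_wo {μ κ : Cardinal.{u}} (hμ : ℵ₀ ≤ μ) (hκ : Order.succ μ ≤ κ) :
    ∃ (Ω : Type u) (_ : LinearOrder Ω) (_ : WellFoundedLT Ω), #Ω = κ ∧
      ∀ s : Set Ω, #s ≤ μ → ∃ x, ∀ y ∈ s, y < x := by
  have hκ0 : ℵ₀ ≤ κ := hμ.trans ((Order.le_succ μ).trans hκ)
  have hne : Nonempty κ.ord.ToType := by
    rw [← mk_ne_zero_iff, mk_toType, card_ord]
    exact (aleph0_pos.trans_le hκ0).ne'
  refine ⟨SuccTy μ ×ₗ κ.ord.ToType, inferInstance, inferInstance, ?_, fun s hs => ?_⟩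
  · have : #(SuccTy μ ×ₗ κ.ord.ToType) = #(SuccTy μ × κ.ord.ToType) := rfl
    rw [this, mk_prod, lift_id, lift_id]
    simp only [SuccTy, mk_toType, card_ord]
    exact mul_eq_right hκ0 hκ (Order.succ_ne_bot μ)
  · obtain ⟨x, hx⟩ := exists_gt_of_small hμ ((fun y => (ofLex y).1) '' s) (mk_image_le.trans hs)
    refine ⟨toLex (x, Classical.arbitrary _), fun y hy => ?_⟩
    rw [Prod.Lex.lt_iff]
    exact Or.inl (hx _ ⟨y, hy, rfl⟩)

/-- One sequence of elements of `Alt Ω`. -/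
theorem exists_fill' {ρ μ : Cardinal.{u}} (hρ : ℵ₀ ≤ ρ) (hμ : Order.succ ρ ≤ μ) {Ω : Type u}
    [LinearOrder Ω] [WellFoundedLT Ω] (hΩ : ∀ s : Set Ω, #s ≤ μ → ∃ x, ∀ y ∈ s, y < x)
    {Y : Set (Alt Ω)} (hY : #Y ≤ μ) (f : SuccTy ρ → Alt Ω) :
    ∃ g : SuccTy ρ → SuccTy ρ, StrictMono g ∧ ((∃ x, ∀ j, f (g j) = x) ∨
        ∃ x, x ∉ Y ∧ ∀ y ∈ Y, ∃ j₀, ∀ j, j₀ ≤ j →
          (f (g j) < y ↔ x < y) ∧ (y < f (g j) ↔ y < x)) := by
  obtain ⟨g₁, hg₁, ⟨n⟩, hn⟩ := exists_subseq_const (T := ULift.{u} ℕ) hρ (by simpa using hρ)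
    fun j => ULift.up (List.length (f j))
  obtain ⟨g₂, hg₂, h⟩ := exists_fill hρ hμ hΩ n true Y hY (fun j => f (g₁ j))
    (fun j => congrArg ULift.down (hn j))
  exact ⟨fun j => g₁ (g₂ j), hg₁.comp hg₂, h⟩

/-- Special orders. -/
theorem exists_special {ρ μ κ : Cardinal.{u}} (hρ : ℵ₀ ≤ ρ) (hμ : Order.succ ρ ≤ μ)
    (hκ : Order.succ μ ≤ κ) : ∃ (J : Type u) (_ : LinearOrder J), #J = κ ∧
      ∀ (Y : Set J), #Y ≤ μ → ∀ (Q : Type u) [Finite Q] (w : SuccTy ρ → Q → J),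
        (∀ j q, w j q ∈ Y) → ∃ g : SuccTy ρ → SuccTy ρ, StrictMono g ∧ ∃ v : Q → J,
          (∀ q, ∀ y ∈ Y, ∃ j₀, ∀ j, j₀ ≤ j →
            (w (g j) q ≤ y ↔ v q ≤ y) ∧ (y ≤ w (g j) q ↔ y ≤ v q)) ∧
          ∀ j q q', w (g j) q ≤ w (g j) q' ↔ v q ≤ v q' := by
  classical
  have hμ0 : ℵ₀ ≤ μ := hρ.trans ((Order.le_succ ρ).trans hμ)
  have hκ0 : ℵ₀ ≤ κ := hμ0.trans ((Order.le_succ μ).trans hκ)
  obtain ⟨Ω, _, _, hΩ, hb⟩ := exists_wo hμ0 hκ
  have hinf : Infinite Ω := by rw [infinite_iff, hΩ]; exact hκ0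
  refine ⟨Alt Ω ×ₗ ℕ, inferInstance, ?_, fun Y hY Q _ w hw => ?_⟩
  · have h1 : #(Alt Ω ×ₗ ℕ) = #(List Ω × ℕ) := rfl
    rw [h1, mk_prod, mk_list_eq_mk, hΩ]
    simp [mul_aleph0_eq hκ0]
  · -- constant pattern, second coordinates, and lengths
    have hfin : #(Set (Q × Q) × (Q → ℕ)) ≤ ρ := by
      have h1 : #(Set (Q × Q)) ≤ ℵ₀ := mk_le_aleph0
      have h2 : #(Q → ℕ) ≤ ℵ₀ := by
        have := Fintype.ofFinite Q
        have h3 : Countable (Q → ℕ) := inferInstance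
        exact mk_le_aleph0
      rw [mk_prod, lift_id, lift_id]
      exact ((mul_le_mul' h1 h2).trans (by rw [aleph0_mul_aleph0])).trans hρ
    obtain ⟨g₁, hg₁, t, ht⟩ := exists_subseq_const hρ hfin fun j =>
      ({p : Q × Q | w j p.1 ≤ w j p.2}, fun q => (ofLex (w j q)).2)
    have hpat : ∀ j j' q q', w (g₁ j) q ≤ w (g₁ j) q' ↔ w (g₁ j') q ≤ w (g₁ j') q' := by
      intro j j' q q'
      have h1 := congrArg Prod.fst ((ht j).trans (ht j').symm)
      exact iff_of_eq (congrArg (fun S : Set (Q × Q) => (q, q') ∈ S) h1)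
    have hsnd : ∀ j j' q, (ofLex (w (g₁ j) q)).2 = (ofLex (w (g₁ j') q)).2 := by
      intro j j' q
      exact congrFun (congrArg Prod.snd ((ht j).trans (ht j').symm)) q
    -- fill the individual cuts
    let Y₀ : Set (Alt Ω) := (fun y : Alt Ω ×ₗ ℕ => (ofLex y).1) '' Y
    have hY₀ : #Y₀ ≤ μ := mk_image_le.trans hY
    let C : (SuccTy ρ → Alt Ω) → Prop := fun f =>
      (∃ x, ∀ j, f j = x) ∨ ∃ x : Alt Ω, x ∉ Y₀ ∧ ∀ y ∈ Y₀, ∃ j₀, ∀ j, j₀ ≤ j →
        (f j < y ↔ x < y) ∧ (y < f j ↔ y < x)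
    obtain ⟨g₂, hg₂, h₂⟩ := exists_subseq_finite C (by
      rintro f g hg (⟨x, hx⟩ | ⟨x, hx, h⟩)
      · exact Or.inl ⟨x, fun j => hx _⟩
      · refine Or.inr ⟨x, hx, fun y hy => ?_⟩
        obtain ⟨j₀, hj₀⟩ := h y hy
        exact ⟨j₀, fun j hj => hj₀ (g j) (hj.trans (le_of_strictMono hg j))⟩)
      (fun f => exists_fill' hρ hμ hb hY₀ f) (fun j q => (ofLex (w (g₁ j) q)).1)
    obtain ⟨i₀⟩ := nonempty_succTy hρ
    obtain ⟨v, hv₁, hv₂⟩ := exists_limit (Y := Y) (fun j q => w (g₁ (g₂ j)) q)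
      (fun j q => hw _ _) hρ (fun j j' q q' => hpat _ _ _ _) (by
        intro q
        rcases h₂ q with ⟨x, hx⟩ | ⟨x, hx, h⟩
        · refine Or.inl ⟨w (g₁ (g₂ i₀)) q, fun j => ?_⟩
          exact congrArg toLex (Prod.ext ((hx j).trans (hx i₀).symm) (hsnd _ _ q))
        · exact Or.inr ⟨x, fun y hy heq => hx ⟨y, hy, heq⟩, fun y hy => h _ ⟨y, hy, rfl⟩⟩)
    exact ⟨fun j => g₁ (g₂ j), hg₁.comp hg₂, v, hv₁, hv₂⟩

end special

end Vale.Agent.P307.R2.H366
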